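/-
Row 269 (S0510 + S0511), real front end: shared definitions.

Paper P1 = "Rigidity of smooth billiards with a continuous caustic collar", Sections 2.1-2.2, 3.
The table is described by its support function `h` (origin inside the table):
  boundary point with outward normal `n_ψ`:  `h ψ • n_ψ + h' ψ • e_ψ`,   radius of curvature `h + h''`.
An oriented line is `(θ, p)`: velocity `e_θ`, equation `n_θ · x = p`.
If the line `(θ,p)` reflects to `(θ',p')`, with `ψ = (θ+θ')/2`, `d = (θ'-θ)/2`, then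
  `p = h ψ cos d - h' ψ sin d`,  `p' = h ψ cos d + h' ψ sin d`      (P1, Section 2.1).

DESIGN (captain helper264).  Sections 2 and 3 of P1 use the caustic collar ONLY through the two
elementary properties `closes` and `unique` of `GlancingRigid` below.
-/
import Mathlib

set_option autoImplicit false

namespace Claimed.Agent.R269

open Real

/-- outward unit normal `n_θ`. -/
noncomputable def nvec (θ : ℝ) : ℝ × ℝ := (cos θ, sin θ)

/-- unit tangent `e_θ`. -/
noncomputable def evec (θ : ℝ) : ℝ × ℝ := (-sin θ, cos θ)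

/-- Euclidean product on `ℝ × ℝ`. -/
def dotR (u v : ℝ × ℝ) : ℝ := u.1 * v.1 + u.2 * v.2

/-- `h` is the support function of a smooth table with positive curvature. -/
structure IsSupport (h : ℝ → ℝ) : Prop where
  smooth : ContDiff ℝ ((⊤ : ℕ∞) : WithTop ℕ∞) h
  periodic : Function.Periodic h (2 * π)
  radius_pos : ∀ θ, 0 < h θ + deriv (deriv h) θ

/-- The open convex set with support function `h`, centred at `c₀`. -/
def tableOf (c₀ : ℝ × ℝ) (h : ℝ → ℝ) : Set (ℝ × ℝ) :=
  {x | ∀ θ : ℝ, dotR (x - c₀) (nvec θ) < h θ}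

/-- momentum `p = -S₁(θ,θ')` of the incoming line. -/
noncomputable def pIn (h : ℝ → ℝ) (θ θ' : ℝ) : ℝ :=
  h ((θ + θ') / 2) * cos ((θ' - θ) / 2) - deriv h ((θ + θ') / 2) * sin ((θ' - θ) / 2)

/-- momentum `p' = S₂(θ,θ')` of the reflected line. -/
noncomputable def pOut (h : ℝ → ℝ) (θ θ' : ℝ) : ℝ :=
  h ((θ + θ') / 2) * cos ((θ' - θ) / 2) + deriv h ((θ + θ') / 2) * sin ((θ' - θ) / 2)

/-- `θ 0, …, θ q` are the angles of `q+1` consecutive lines of a billiard trajectory, all of whose
angular steps lie in `(0, η)`. -/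
structure IsChain (h : ℝ → ℝ) (η : ℝ) (q : ℕ) (θ : ℕ → ℝ) : Prop where
  step_pos : ∀ j, j < q → θ j < θ (j + 1)
  step_lt : ∀ j, j < q → θ (j + 1) - θ j < η
  stationary : ∀ j, j + 1 < q → pOut h (θ j) (θ (j + 1)) = pIn h (θ (j + 1)) (θ (j + 2))

/-- What Sections 2-3 of P1 use of the collar.
`closes`: a glancing chain whose total angular increment is `2π l` is periodic (its momentum returns):
the first line lies on one invariant graph `p = g_b(θ)`, so do all later ones, and `g_b` is periodic.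
`unique`: a glancing chain is determined by its two end angles (the lifts `F_b` are strictly ordered
in `b`, hence so are their iterates). -/
structure GlancingRigid (h : ℝ → ℝ) : Prop where
  out : ∃ η : ℝ, 0 < η ∧
    (∀ (q l : ℕ) (θ : ℕ → ℝ), IsChain h η (q + 1) θ → θ (q + 1) = θ 0 + 2 * π * l →
        pOut h (θ q) (θ (q + 1)) = pIn h (θ 0) (θ 1)) ∧
    (∀ (q : ℕ) (θ θ' : ℕ → ℝ), IsChain h η q θ → IsChain h η q θ' → θ 0 = θ' 0 → θ q = θ' q →
        ∀ j, j ≤ q → θ j = θ' j)

/-- `h` is the support function of an ellipse (centre `v`, matrix `N`). -/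
def IsEllipseSupport (h : ℝ → ℝ) : Prop :=
  ∃ (n₁ n₂ n₃ v₁ v₂ : ℝ), 0 < n₁ ∧ 0 < n₁ * n₃ - n₂ ^ 2 ∧
    ∀ θ, h θ = sqrt (n₁ * cos θ ^ 2 + 2 * n₂ * cos θ * sin θ + n₃ * sin θ ^ 2)
      + v₁ * cos θ + v₂ * sin θ

end Claimed.Agent.R269
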