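/-
Row 269: the complex-analytic context produced by P1 Theorem 3.1 (joint glancing parametrization)
and consumed by Sections 4-11.  Owner: helper264 (captain).  Only the captain changes this file.

`Θ y t`, `p y t` are the oriented-line coordinates of P1 (3.3); the billiard map is `y ↦ y + t`.
-/
import Claimed.Agent.R269.Real

set_option autoImplicit false

namespace Claimed.Agent.R269

open Real Complex ComplexConjugate

/-- the open horizontal strip `|Im z| < s`. -/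
def hstrip (s : ℝ) : Set ℂ := {z | |z.im| < s}

/-- complexified `pIn`. -/
noncomputable def pInC (h : ℂ → ℂ) (θ θ' : ℂ) : ℂ :=
  h ((θ + θ') / 2) * Complex.cos ((θ' - θ) / 2) - deriv h ((θ + θ') / 2) * Complex.sin ((θ' - θ) / 2)

/-- complexified `pOut`. -/
noncomputable def pOutC (h : ℂ → ℂ) (θ θ' : ℂ) : ℂ :=
  h ((θ + θ') / 2) * Complex.cos ((θ' - θ) / 2) + deriv h ((θ + θ') / 2) * Complex.sin ((θ' - θ) / 2)

/-- The data of P1 Theorem 3.1 (after Theorem 2.1), in line coordinates. -/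
structure Glance where
  /-- holomorphic extension of the support function -/
  hc : ℂ → ℂ
  σ : ℝ
  σ_pos : 0 < σ
  hc_diff : DifferentiableOn ℂ hc (hstrip σ)
  hc_per : ∀ z ∈ hstrip σ, hc (z + 2 * π) = hc z
  hc_conj : ∀ z ∈ hstrip σ, hc (conj z) = conj (hc z)
  rad_pos : ∀ x : ℝ, 0 < (hc x + deriv (deriv hc) x).re
  /-- the normalised curvature constant `c = r(φ) φ'^3` -/
  c : ℝ
  c_pos : 0 < c
  s : ℝ
  r₁ : ℝ
  r₁_pos : 0 < r₁
  r₁_lt : r₁ < s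
  Θ : ℂ → ℂ → ℂ
  p : ℂ → ℂ → ℂ
  Θ_diff : DifferentiableOn ℂ (fun z : ℂ × ℂ => Θ z.1 z.2) (hstrip (2 * s) ×ˢ Metric.ball 0 r₁)
  p_diff : DifferentiableOn ℂ (fun z : ℂ × ℂ => p z.1 z.2) (hstrip (2 * s) ×ˢ Metric.ball 0 r₁)
  Θ_mem : ∀ y ∈ hstrip (2 * s), ∀ t ∈ Metric.ball (0 : ℂ) r₁, Θ y t ∈ hstrip σ
  Θ_per : ∀ y ∈ hstrip (2 * s), ∀ t ∈ Metric.ball (0 : ℂ) r₁, Θ (y + 2 * π) t = Θ y t + 2 * π
  p_per : ∀ y ∈ hstrip (2 * s), ∀ t ∈ Metric.ball (0 : ℂ) r₁, p (y + 2 * π) t = p y t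
  Θ_even : ∀ y ∈ hstrip (2 * s), ∀ t ∈ Metric.ball (0 : ℂ) r₁, Θ y (-t) = Θ y t
  p_even : ∀ y ∈ hstrip (2 * s), ∀ t ∈ Metric.ball (0 : ℂ) r₁, p y (-t) = p y t
  Θ_conj : ∀ y ∈ hstrip (2 * s), ∀ t ∈ Metric.ball (0 : ℂ) r₁, Θ (conj y) (conj t) = conj (Θ y t)
  p_conj : ∀ y ∈ hstrip (2 * s), ∀ t ∈ Metric.ball (0 : ℂ) r₁, p (conj y) (conj t) = conj (p y t)
  /-- the line `(Θ,p)(y,t)` reflects to the line `(Θ,p)(y+t,t)` -/
  refl_in : ∀ y ∈ hstrip s, ∀ t ∈ Metric.ball (0 : ℂ) r₁, p y t = pInC hc (Θ y t) (Θ (y + t) t)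
  refl_out : ∀ y ∈ hstrip s, ∀ t ∈ Metric.ball (0 : ℂ) r₁,
    p (y + t) t = pOutC hc (Θ y t) (Θ (y + t) t)
  /-- `φ' > 0` on the real axis, `φ = Θ(·,0)` -/
  φ'_pos : ∀ x : ℝ, 0 < (deriv (fun y => Θ y 0) x).re
  /-- Lazutkin normalisation `r(φ(x)) φ'(x)^3 = c` -/
  normalised : ∀ x : ℝ,
    (hc (Θ x 0) + deriv (deriv hc) (Θ x 0)) * deriv (fun y => Θ y 0) x ^ 3 = c
  /-- area coefficient: `dp ∧ dΘ = A(t) dy ∧ dt` -/
  A : ℂ → ℂ
  A_diff : DifferentiableOn ℂ A (Metric.ball 0 r₁)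
  A_deriv : deriv A 0 = c / 4
  area : ∀ y ∈ hstrip (2 * s), ∀ t ∈ Metric.ball (0 : ℂ) r₁,
    deriv (fun y' => p y' t) y * deriv (fun t' => Θ y t') t
      - deriv (fun t' => p y t') t * deriv (fun y' => Θ y' t) y = A t

namespace Glance

/-- the real support function of the table. -/
noncomputable def hR (G : Glance) (θ : ℝ) : ℝ := (G.hc θ).re

/-- the normal angle in the normalised boundary coordinate, `φ = Θ(·,0)`. -/
noncomputable def φ₀ (G : Glance) (y : ℂ) : ℂ := G.Θ y 0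

end Glance

end Claimed.Agent.R269
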