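/-
Row 269: shared complex-analytic definitions for P1 Sections 4-5 (owner: captain helper264).

* `Mero2At/Mero2On`   jointly meromorphic functions of two complex variables (values on the polar /
                      indeterminacy set are junk and never used);
* `Glance.X0`, `Glance.L0`   the impact map and the line map on the initial domain;
* `Glance.width`      the horizontal width `h_F(t)` of P1 Definition 4.1, with values in `ℝ≥0∞`;
* `Glance.JointPatchAt`  a joint meromorphic patch of the primary branch (P1 Section 4.6).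

Conventions.  Points of `ℂ²` are in Euclidean coordinates `(x₁,x₂)`.  An unoriented line
`cos Θ x₁ + sin Θ x₂ = p` is recorded in the chart `(E,P) = (exp(2iΘ), p exp(iΘ))`, i.e. as
`Z + E W = 2 P` with `Z = x₁ + i x₂`, `W = x₁ - i x₂`; any other chart gives the same widths.
The basic strip is `|Im y| < s/2`; the widths do not depend on this choice.
-/
import Claimed.Agent.R269.Glance

set_option autoImplicit false

namespace Claimed.Agent.R269

open Complex ComplexConjugate Filter Topology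
open scoped ENNReal

/-- `F` is jointly meromorphic at `z`: near `z` it is a quotient of analytic functions. -/
def Mero2At (F : ℂ × ℂ → ℂ) (z : ℂ × ℂ) : Prop :=
  ∃ g k : ℂ × ℂ → ℂ, AnalyticAt ℂ g z ∧ AnalyticAt ℂ k z ∧ (¬ ∀ᶠ w in 𝓝 z, k w = 0) ∧
    ∀ᶠ w in 𝓝 z, k w ≠ 0 → F w = g w / k w

/-- jointly meromorphic on a set. -/
def Mero2On (F : ℂ × ℂ → ℂ) (W : Set (ℂ × ℂ)) : Prop := ∀ z ∈ W, Mero2At F z

/-- `F` and `P` define the same meromorphic germ at `z`. -/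
def Mero2EqAt (F P : ℂ × ℂ → ℂ) (z : ℂ × ℂ) : Prop :=
  ∃ g k : ℂ × ℂ → ℂ, AnalyticAt ℂ g z ∧ AnalyticAt ℂ k z ∧ (¬ ∀ᶠ w in 𝓝 z, k w = 0) ∧
    ∀ᶠ w in 𝓝 z, k w ≠ 0 → (F w = g w / k w ∧ P w = g w / k w)

/-- pairs of jointly meromorphic functions (affine coordinates of a projective map). -/
def Mero2On₂ (F : ℂ × ℂ → ℂ × ℂ) (W : Set (ℂ × ℂ)) : Prop :=
  Mero2On (fun z => (F z).1) W ∧ Mero2On (fun z => (F z).2) W

/-- equality of germs of pairs. -/
def Mero2EqAt₂ (F P : ℂ × ℂ → ℂ × ℂ) (z : ℂ × ℂ) : Prop :=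
  Mero2EqAt (fun w => (F w).1) (fun w => (P w).1) z ∧ Mero2EqAt (fun w => (F w).2) (fun w => (P w).2) z

/-- the horizontal band `a < Im y < b`. -/
def hband (a b : ℝ) : Set ℂ := {y | a < y.im ∧ y.im < b}

/-- the complexified support point with normal angle `ψ`:
`h(ψ) n_ψ + h'(ψ) e_ψ`. -/
noncomputable def suppPt (h : ℂ → ℂ) (ψ : ℂ) : ℂ × ℂ :=
  (h ψ * Complex.cos ψ - deriv h ψ * Complex.sin ψ, h ψ * Complex.sin ψ + deriv h ψ * Complex.cos ψ)

namespace Glance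

variable (G : Glance)

/-- the impact `X(y,t) = L(y - t/2,t) ∩ L(y + t/2,t)` on the initial domain, written as the support
point whose normal angle is the mean of the two line angles (so that `t = 0` is not singular). -/
noncomputable def X0 (z : ℂ × ℂ) : ℂ × ℂ :=
  suppPt G.hc ((G.Θ (z.1 - z.2 / 2) z.2 + G.Θ (z.1 + z.2 / 2) z.2) / 2)

/-- the unoriented line `L(y,t)` on the initial domain, in the chart `(exp(2iΘ), p exp(iΘ))`. -/
noncomputable def L0 (z : ℂ × ℂ) : ℂ × ℂ :=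
  (Complex.exp (2 * I * G.Θ z.1 z.2), G.p z.1 z.2 * Complex.exp (I * G.Θ z.1 z.2))

/-- the boundary curve in the normalised coordinate, near the real axis: `Γ(y) = X(y,0)`. -/
noncomputable def Γ0 (y : ℂ) : ℂ × ℂ := G.X0 (y, 0)

/-- `F` is a single-valued meromorphic extension of the primary branch `F₀` to
`{-s/2 < Im y < b} × V`. -/
structure IsPrimaryExt (F₀ : ℂ × ℂ → ℂ × ℂ) (b : ℝ) (V : Set ℂ) (F : ℂ × ℂ → ℂ × ℂ) : Prop where
  isOpen : IsOpen V
  sub : V ⊆ Metric.ball 0 G.r₁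
  mero : Mero2On₂ F (hband (-(G.s / 2)) b ×ˢ V)
  agrees : ∀ z ∈ hstrip (G.s / 2) ×ˢ V, F z = F₀ z

/-- the primary branch extends to height `b` on a neighbourhood of the parameter `t`. -/
def ExtendsTo (F₀ : ℂ × ℂ → ℂ × ℂ) (t : ℂ) (b : ℝ) : Prop :=
  ∃ (V : Set ℂ) (F : ℂ × ℂ → ℂ × ℂ), t ∈ V ∧ G.IsPrimaryExt F₀ b V F

/-- P1 Definition 4.1: the width `h_F(t)`. -/
noncomputable def width (F₀ : ℂ × ℂ → ℂ × ℂ) (t : ℂ) : ℝ≥0∞ :=
  sSup {w : ℝ≥0∞ | ∃ b : ℝ, G.s / 2 < b ∧ G.ExtendsTo F₀ t b ∧ w = ENNReal.ofReal b}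

/-- `h_X(t)`. -/
noncomputable def hX (t : ℂ) : ℝ≥0∞ := G.width G.X0 t

/-- `h_L(t)`. -/
noncomputable def hL (t : ℂ) : ℝ≥0∞ := G.width G.L0 t

/-- A joint meromorphic patch of the primary branch of `F₀` at the point `(y₁,t₀)`:
a meromorphic `P` on a bidisc about `(y₁,t₀)` which, somewhere below `y₁` inside the bidisc, has the
same germs as a primary extension.  (`-(s/2) < b` makes the comparison region nonempty.) -/
def JointPatchAt (F₀ : ℂ × ℂ → ℂ × ℂ) (y₁ t₀ : ℂ) : Prop :=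
  ∃ (ε : ℝ) (P : ℂ × ℂ → ℂ × ℂ) (b : ℝ) (V : Set ℂ) (F : ℂ × ℂ → ℂ × ℂ),
    0 < ε ∧ Mero2On₂ P (Metric.ball y₁ ε ×ˢ Metric.ball t₀ ε) ∧
    y₁.im - ε < b ∧ -(G.s / 2) < b ∧ b ≤ y₁.im ∧ t₀ ∈ V ∧ G.IsPrimaryExt F₀ b V F ∧
    ∀ z ∈ (Metric.ball y₁ ε ∩ hband (-(G.s / 2)) b) ×ˢ (Metric.ball t₀ ε ∩ V), Mero2EqAt₂ P F z

/-- the shape half-width `H = h_X(0)`. -/
noncomputable def Hs : ℝ≥0∞ := G.hX 0

end Glance

/-- the strip `|Im s| < H`, `H ∈ (0,∞]`. -/
def estrip (H : ℝ≥0∞) : Set ℂ := {s | ENNReal.ofReal |s.im| < H}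

end Claimed.Agent.R269
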