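/-
Row 269: the context of P1 Sections 6-11 (owner: captain helper264).

`Shape` bundles EVERYTHING that Sections 6-11 use from Sections 3-5 in the nonisotropic, noncircular
case: Theorem 3.1 (`G : Glance`, already mean-normalised as in (5.23)), Lemma 4.1, Proposition 4.7,
Theorem 4.8 (no patch), Corollary 4.9 (natural boundary), Theorem 5.4 (global shape lift),
Lemma 5.5 (`q = f''/f` holomorphic), (5.23)-(5.24).
Section 5 constructs a `Shape` (or proves that the table is an ellipse); Sections 6-11 refute it.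
-/
import Claimed.Agent.R269.Cplx

set_option autoImplicit false

namespace Claimed.Agent.R269

open Complex ComplexConjugate Filter Topology MeasureTheory
open scoped ENNReal Real

namespace Glance

/-- the joint tube `{(y,t) : |t| < ρ, -h_X(conj t) < Im y < h_X(t)}` of P1 (5.17). -/
def tube (G : Glance) (ρ : ℝ) : Set (ℂ × ℂ) :=
  {z | z.2 ∈ Metric.ball (0 : ℂ) ρ ∧ ENNReal.ofReal z.1.im < G.hX z.2 ∧
    ENNReal.ofReal (-z.1.im) < G.hX (conj z.2)}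

end Glance

/-- supermean inequality on circles inside `ball 0 ρ` for an `ℝ≥0∞`-valued function. -/
def SuperMeanOn (w : ℂ → ℝ≥0∞) (ρ : ℝ) : Prop :=
  ∀ (t₀ : ℂ) (r : ℝ), 0 < r → Metric.closedBall t₀ r ⊆ Metric.ball (0 : ℂ) ρ →
    ∫⁻ θ in Set.Ioc (0 : ℝ) (2 * π), w (t₀ + r * Complex.exp (θ * I)) ≤ ENNReal.ofReal (2 * π) * w t₀

/-- The nonisotropic noncircular alternative. -/
structure Shape where
  G : Glance
  /-- radius of the (shrunk) parameter disc `B` -/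
  ρ : ℝ
  ρ_pos : 0 < ρ
  ρ_le : ρ ≤ G.r₁
  /-- holomorphic normal angle on the shape strip `D_H`, `H = G.Hs = h_X(0)` -/
  φ : ℂ → ℂ
  /-- the potential `q = f''/f`, `f = φ'` -/
  q : ℂ → ℂ
  /-- the meromorphic boundary curve on `D_H` -/
  Γ : ℂ → ℂ × ℂ
  /-- the impact lift on the joint tube -/
  lift : ℂ × ℂ → ℂ
  -- Section 4
  width_rel : ∀ t ∈ Metric.ball (0 : ℂ) ρ, G.hL t = G.hX t + ENNReal.ofReal (|t.im| / 2)
  lsc_X : LowerSemicontinuousOn G.hX (Metric.ball 0 ρ)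
  lsc_L : LowerSemicontinuousOn G.hL (Metric.ball 0 ρ)
  supermean_X : SuperMeanOn G.hX ρ
  supermean_L : SuperMeanOn G.hL ρ
  no_patch_X : ∀ t₀ : ℝ, |t₀| < ρ → ∀ y₁ : ℂ, ENNReal.ofReal y₁.im = G.hX t₀ →
    ¬ G.JointPatchAt G.X0 y₁ t₀
  no_patch_L : ∀ t₀ : ℝ, |t₀| < ρ → ∀ y₁ : ℂ, ENNReal.ofReal y₁.im = G.hL t₀ →
    ¬ G.JointPatchAt G.L0 y₁ t₀
  -- the shape fields
  φ_diff : DifferentiableOn ℂ φ (estrip G.Hs)
  φ_base : ∀ y ∈ hstrip (G.s / 2), φ y = G.Θ y 0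
  φ_per : ∀ s ∈ estrip G.Hs, φ (s + 2 * π) = φ s + 2 * π
  φ_conj : ∀ s ∈ estrip G.Hs, φ (conj s) = conj (φ s)
  q_diff : DifferentiableOn ℂ q (estrip G.Hs)
  q_eq : ∀ s ∈ estrip G.Hs, deriv (deriv (deriv φ)) s = q s * deriv φ s
  noncircular : ¬ ∃ c₁ : ℂ, ∀ s ∈ estrip G.Hs, deriv φ s = c₁
  -- the curve
  Γ_mero : MeromorphicOn (fun s => (Γ s).1) (estrip G.Hs) ∧
    MeromorphicOn (fun s => (Γ s).2) (estrip G.Hs)
  Γ_base : ∀ y ∈ hstrip (G.s / 2), Γ y = G.Γ0 y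
  Γ_deriv : ∀ s ∈ estrip G.Hs, deriv φ s ≠ 0 →
    HasDerivAt Γ ((G.c / deriv φ s ^ 2 : ℂ) • (-Complex.sin (φ s), Complex.cos (φ s))) s
  nat_bdry : ∀ s₀ : ℂ, ENNReal.ofReal |s₀.im| = G.Hs →
    ¬ ∃ (ε : ℝ) (P : ℂ → ℂ × ℂ), 0 < ε ∧ MeromorphicOn (fun s => (P s).1) (Metric.ball s₀ ε) ∧
      MeromorphicOn (fun s => (P s).2) (Metric.ball s₀ ε) ∧
      ∀ s ∈ Metric.ball s₀ ε ∩ estrip G.Hs, P =ᶠ[𝓝[≠] s] Γ
  -- the lift (Theorem 5.4 and the normalisation (5.23))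
  lift_diff : DifferentiableOn ℂ lift (G.tube ρ)
  lift_mem : ∀ z ∈ G.tube ρ, lift z ∈ estrip G.Hs
  lift_zero : ∀ y ∈ estrip G.Hs, lift (y, 0) = y
  lift_per : ∀ z ∈ G.tube ρ, lift (z.1 + 2 * π, z.2) = lift z + 2 * π
  lift_even : ∀ z ∈ G.tube ρ, lift (z.1, -z.2) = lift z
  lift_conj : ∀ z ∈ G.tube ρ, lift (conj z.1, conj z.2) = conj (lift z)
  lift_base : ∀ z ∈ hstrip (G.s / 4) ×ˢ Metric.ball (0 : ℂ) ρ,
    lift z ∈ hstrip (G.s / 2) ∧ G.X0 z = G.Γ0 (lift z)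
  lift_mean : ∀ t ∈ Metric.ball (0 : ℂ) ρ, ∫ x in (0 : ℝ)..(2 * π), (lift ((x : ℂ), t) - x) = 0
  lift_mono : ∀ t : ℝ, |t| < ρ → ∀ x : ℝ, 0 < (deriv (fun y => lift (y, (t : ℂ))) x).re
  hX_le : ∀ t ∈ Metric.ball (0 : ℂ) ρ, G.hX t ≤ G.Hs

namespace Shape

variable (Sh : Shape)

/-- the half-width `H ∈ (0,∞]` of the shape strip. -/
noncomputable def H : ℝ≥0∞ := Sh.G.Hs

/-- `H` as a real number (junk `0` if `H = ∞`). -/
noncomputable def Hr : ℝ := Sh.G.Hs.toReal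

/-- the shape strip `D_H`. -/
def D : Set ℂ := estrip Sh.G.Hs

/-- the joint tube. -/
def T : Set (ℂ × ℂ) := Sh.G.tube Sh.ρ

/-- the first field `f = φ'`. -/
noncomputable def f (s : ℂ) : ℂ := deriv Sh.φ s

/-- `M = max(|f|, |q|^{1/2})`. -/
noncomputable def M (s : ℂ) : ℝ := max ‖Sh.f s‖ (Real.sqrt ‖Sh.q s‖)

/-- `W = f² + 8 q`. -/
noncomputable def W (s : ℂ) : ℂ := Sh.f s ^ 2 + 8 * Sh.q s

/-- the phase-width deficit `Δ(t) = H - h_X(t)` (finite `H`). -/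
noncomputable def Δ (t : ℂ) : ℝ := Sh.Hr - (Sh.G.hX t).toReal

/-- A *passage* ("joint holomorphic continuation of the lift along vertical paths, attached to the
actual lift from below and staying in the shape strip"): a holomorphic `S` on an open set `R` such
that every point of `R` is joined inside `R`, by a vertical segment with the parameter fixed, to a
lower point of the tube near which `S` is the actual lift. -/
structure IsPassage (R : Set (ℂ × ℂ)) (S : ℂ × ℂ → ℂ) : Prop where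
  isOpen : IsOpen R
  diff : DifferentiableOn ℂ S R
  mem : ∀ z ∈ R, S z ∈ Sh.D
  param : ∀ z ∈ R, z.2 ∈ Metric.ball (0 : ℂ) Sh.ρ
  attached : ∀ z ∈ R, ∃ η : ℝ, η ≤ z.1.im ∧
    (∀ τ ∈ Set.Icc η z.1.im, ((⟨z.1.re, τ⟩ : ℂ), z.2) ∈ R) ∧
    ((⟨z.1.re, η⟩ : ℂ), z.2) ∈ Sh.T ∧ S =ᶠ[𝓝 ((⟨z.1.re, η⟩ : ℂ), z.2)] Sh.lift

/-- row maximum `max_x M(x + i h)`. -/
noncomputable def rowMax (h : ℝ) : ℝ := ⨆ x : ℝ, Sh.M (⟨x, h⟩ : ℂ)

/-- `g(k) = log max_x M(x + i (H - e^{-k}))` (finite `H`). -/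
noncomputable def growth (k : ℝ) : ℝ := Real.log (Sh.rowMax (Sh.Hr - Real.exp (-k)))

/-- the upper growth order `limsup g(k)/k ∈ [-∞,∞]`. -/
noncomputable def order : EReal := Filter.limsup (fun k : ℝ => ((Sh.growth k / k : ℝ) : EReal)) atTop

/-- `μ_f(k) = d_k (E|f(x + i(H - d_k))|²)^{1/2}`, `d_k = e^{-k}`, `E` = mean over one period. -/
noncomputable def μf (k : ℝ) : ℝ :=
  Real.exp (-k) * Real.sqrt ((2 * π)⁻¹ * ∫ x in (0 : ℝ)..(2 * π),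
    ‖Sh.f (⟨x, Sh.Hr - Real.exp (-k)⟩ : ℂ)‖ ^ 2)

/-- `μ(k) = d_k (E(|f|² + |q|))^{1/2}` on the row of depth `d_k`. -/
noncomputable def μ (k : ℝ) : ℝ :=
  Real.exp (-k) * Real.sqrt ((2 * π)⁻¹ * ∫ x in (0 : ℝ)..(2 * π),
    (‖Sh.f (⟨x, Sh.Hr - Real.exp (-k)⟩ : ℂ)‖ ^ 2 + ‖Sh.q (⟨x, Sh.Hr - Real.exp (-k)⟩ : ℂ)‖))

end Shape

end Claimed.Agent.R269
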