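/-
Row 269: basic facts on the fields of `Shape` (owner: helper7).  Sorry-free; imports only `Shape` and `Lib/CAThreeLines`.
Namespace `Shape`, prefix `sb_`.

* the strip `D`: `sb_mem_D_iff` (`|Im s| < Hr` for finite `H`), open, convex, preconnected, invariant under real translations and
  conjugation, contains the real axis (`noncircular` forces `D ≠ ∅`), `sb_Hr_pos`;
* `f = φ'`, `q`: holomorphic, analytic, `2π`-periodic (`sb_f_per`, `sb_q_per`), `sb_f_conj`, `sb_f_ode`, `f` vanishes identically near no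
  point (`sb_f_not_eventually_zero`, `sb_f_frequently_ne`);
* the curve: `sb_Γ_at` (continuity where `f ≠ 0`), `sb_Γ_per` (periodicity where `f ≠ 0`; identity principle for meromorphic functions);
* bounds on closed substrips: `sb_bdd_p`, `sb_bdd_f`, `sb_bdd_q`, `sb_bdd_Γ`; `sb_bddAbove_M`, `sb_M_le_rowMax`;
* zeros: `sb_f_f'_ne` (no common zero of `f`, `f'`), `sb_countable_zeros`; `sb_q_conj`, `sb_M_conj`; rows: `sb_row_continuous`, `sb_M_le`.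
-/
import Claimed.Agent.R269.Shape
import Claimed.Agent.R269.Lib.CAThreeLines

set_option autoImplicit false

namespace Claimed.Agent.R269

open Complex ComplexConjugate Filter Topology MeasureTheory Set Metric
open scoped ENNReal Real

namespace Shape

variable (Sh : Shape)

/-! ### the shape strip -/

theorem sb_mem_D (s : ℂ) : s ∈ Sh.D ↔ ENNReal.ofReal |s.im| < Sh.G.Hs := Iff.rfl

theorem sb_mem_D_iff (hH : Sh.H ≠ ⊤) (s : ℂ) : s ∈ Sh.D ↔ |s.im| < Sh.Hr :=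
  ENNReal.ofReal_lt_iff_lt_toReal (abs_nonneg _) hH

theorem sb_D_eq (hH : Sh.H ≠ ⊤) : Sh.D = {z : ℂ | |z.im| < Sh.Hr} := by
  ext s; exact Sh.sb_mem_D_iff hH s

theorem sb_isOpen_D : IsOpen Sh.D :=
  isOpen_lt (ENNReal.continuous_ofReal.comp (continuous_abs.comp continuous_im)) continuous_const

theorem sb_mem_D_of_im_le {s s' : ℂ} (hs : s ∈ Sh.D) (h : |s'.im| ≤ |s.im|) : s' ∈ Sh.D :=
  lt_of_le_of_lt (ENNReal.ofReal_le_ofReal h) hs

theorem sb_add_real_mem_D {s : ℂ} (hs : s ∈ Sh.D) (x : ℝ) : s + x ∈ Sh.D :=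
  Sh.sb_mem_D_of_im_le hs (by simp)

theorem sb_add_two_pi_mem_D {s : ℂ} (hs : s ∈ Sh.D) : s + 2 * π ∈ Sh.D :=
  Sh.sb_mem_D_of_im_le hs (by simp)

theorem sb_sub_two_pi_mem_D {s : ℂ} (hs : s ∈ Sh.D) : s - 2 * π ∈ Sh.D :=
  Sh.sb_mem_D_of_im_le hs (by simp)

theorem sb_conj_mem_D {s : ℂ} (hs : s ∈ Sh.D) : conj s ∈ Sh.D :=
  Sh.sb_mem_D_of_im_le hs (by simp)

theorem sb_convex_D : Convex ℝ Sh.D := by
  intro s hs s' hs' a b ha hb hab
  rcases le_total |s.im| |s'.im| with h | h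
  · refine Sh.sb_mem_D_of_im_le hs' ?_
    have h1 : (a • s + b • s').im = a * s.im + b * s'.im := by simp
    rw [h1]
    calc |a * s.im + b * s'.im| ≤ |a * s.im| + |b * s'.im| := abs_add_le _ _
      _ = a * |s.im| + b * |s'.im| := by rw [abs_mul, abs_mul, abs_of_nonneg ha, abs_of_nonneg hb]
      _ ≤ a * |s'.im| + b * |s'.im| := by gcongr
      _ = |s'.im| := by rw [← add_mul, hab, one_mul]
  · refine Sh.sb_mem_D_of_im_le hs ?_
    have h1 : (a • s + b • s').im = a * s.im + b * s'.im := by simp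
    rw [h1]
    calc |a * s.im + b * s'.im| ≤ |a * s.im| + |b * s'.im| := abs_add_le _ _
      _ = a * |s.im| + b * |s'.im| := by rw [abs_mul, abs_mul, abs_of_nonneg ha, abs_of_nonneg hb]
      _ ≤ a * |s.im| + b * |s.im| := by gcongr
      _ = |s.im| := by rw [← add_mul, hab, one_mul]

theorem sb_isPreconnected_D : IsPreconnected Sh.D := Sh.sb_convex_D.isPreconnected

theorem sb_nonempty_D : Sh.D.Nonempty := by
  by_contra h
  rw [Set.not_nonempty_iff_eq_empty] at h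
  exact Sh.noncircular ⟨0, fun s hs => by
    have : s ∈ Sh.D := hs
    rw [h] at this
    exact this.elim⟩

theorem sb_real_mem_D (x : ℝ) : (x : ℂ) ∈ Sh.D := by
  obtain ⟨s, hs⟩ := Sh.sb_nonempty_D
  exact Sh.sb_mem_D_of_im_le hs (by simp)

theorem sb_zero_mem_D : (0 : ℂ) ∈ Sh.D := by
  simpa using Sh.sb_real_mem_D 0

theorem sb_Hr_pos (hH : Sh.H ≠ ⊤) : 0 < Sh.Hr := by
  simpa using (Sh.sb_mem_D_iff hH 0).1 Sh.sb_zero_mem_D

theorem sb_D_mem_nhds {s : ℂ} (hs : s ∈ Sh.D) : Sh.D ∈ 𝓝 s := Sh.sb_isOpen_D.mem_nhds hs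

/-! ### the fields `φ`, `f`, `q` -/

theorem sb_φ_at {s : ℂ} (hs : s ∈ Sh.D) : DifferentiableAt ℂ Sh.φ s :=
  (Sh.φ_diff s hs).differentiableAt (Sh.sb_D_mem_nhds hs)

theorem sb_f_diff : DifferentiableOn ℂ Sh.f Sh.D := Sh.φ_diff.deriv Sh.sb_isOpen_D

theorem sb_f_at {s : ℂ} (hs : s ∈ Sh.D) : DifferentiableAt ℂ Sh.f s :=
  (Sh.sb_f_diff s hs).differentiableAt (Sh.sb_D_mem_nhds hs)

theorem sb_f'_diff : DifferentiableOn ℂ (deriv Sh.f) Sh.D := Sh.sb_f_diff.deriv Sh.sb_isOpen_D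

theorem sb_q_at {s : ℂ} (hs : s ∈ Sh.D) : DifferentiableAt ℂ Sh.q s :=
  (Sh.q_diff s hs).differentiableAt (Sh.sb_D_mem_nhds hs)

theorem sb_f_analytic : AnalyticOnNhd ℂ Sh.f Sh.D := Sh.sb_f_diff.analyticOnNhd Sh.sb_isOpen_D

theorem sb_q_analytic : AnalyticOnNhd ℂ Sh.q Sh.D := Sh.q_diff.analyticOnNhd Sh.sb_isOpen_D

theorem sb_φ_analytic : AnalyticOnNhd ℂ Sh.φ Sh.D := Sh.φ_diff.analyticOnNhd Sh.sb_isOpen_D

theorem sb_f_per (s : ℂ) (hs : s ∈ Sh.D) : Sh.f (s + 2 * π) = Sh.f s := by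
  have h1 : (fun z => Sh.φ (z + 2 * π)) =ᶠ[𝓝 s] fun z => Sh.φ z + 2 * π := by
    filter_upwards [Sh.sb_D_mem_nhds hs] with z hz using Sh.φ_per z hz
  have h2 := h1.deriv_eq
  rw [deriv_comp_add_const, deriv_add_const] at h2
  exact h2

theorem sb_f_conj (s : ℂ) (hs : s ∈ Sh.D) : Sh.f (conj s) = conj (Sh.f s) := by
  have h1 : (conj ∘ Sh.φ ∘ conj) =ᶠ[𝓝 s] Sh.φ := by
    filter_upwards [Sh.sb_D_mem_nhds hs] with z hz
    simp only [Function.comp_apply]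
    rw [Sh.φ_conj z hz, Complex.conj_conj]
  have h2 := h1.deriv_eq
  rw [deriv_conj_conj] at h2
  simp only [Function.comp_apply] at h2
  have h3 : conj (conj (deriv Sh.φ (conj s))) = conj (deriv Sh.φ s) := by rw [h2]
  rwa [Complex.conj_conj] at h3

theorem sb_f_ode (s : ℂ) (hs : s ∈ Sh.D) : deriv (deriv Sh.f) s = Sh.q s * Sh.f s :=
  Sh.q_eq s hs

/-- `f` does not vanish identically near any point of the strip. -/
theorem sb_f_not_eventually_zero {s : ℂ} (hs : s ∈ Sh.D) : ¬ ∀ᶠ z in 𝓝 s, Sh.f z = 0 := by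
  intro h
  have := Sh.sb_f_analytic.eqOn_zero_of_preconnected_of_eventuallyEq_zero Sh.sb_isPreconnected_D hs h
  exact Sh.noncircular ⟨0, fun z hz => this hz⟩

theorem sb_f_frequently_ne {s : ℂ} (hs : s ∈ Sh.D) : ∀ᶠ z in 𝓝[≠] s, Sh.f z ≠ 0 := by
  rcases (Sh.sb_f_analytic s hs).eventually_eq_zero_or_eventually_ne_zero with h | h
  · exact absurd h (Sh.sb_f_not_eventually_zero hs)
  · exact h

theorem sb_q_per (s : ℂ) (hs : s ∈ Sh.D) : Sh.q (s + 2 * π) = Sh.q s := by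
  -- equality off the zeros of `f`, then continuity
  have hf'per : ∀ z ∈ Sh.D, deriv (deriv Sh.f) (z + 2 * π) = deriv (deriv Sh.f) z := by
    intro z hz
    have h1 : (fun w => Sh.f (w + 2 * π)) =ᶠ[𝓝 z] Sh.f := by
      filter_upwards [Sh.sb_D_mem_nhds hz] with w hw using Sh.sb_f_per w hw
    have h2 : deriv (fun w => Sh.f (w + 2 * π)) =ᶠ[𝓝 z] deriv Sh.f := h1.deriv
    have h3 : deriv (fun w => Sh.f (w + 2 * π)) = fun w => deriv Sh.f (w + 2 * π) := by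
      funext w; rw [deriv_comp_add_const]
    rw [h3] at h2
    have h4 := h2.deriv_eq
    rwa [deriv_comp_add_const] at h4
  have hoff : ∀ z ∈ Sh.D, Sh.f z ≠ 0 → Sh.q (z + 2 * π) = Sh.q z := by
    intro z hz hfz
    have h1 := Sh.sb_f_ode z hz
    have h2 := Sh.sb_f_ode (z + 2 * π) (Sh.sb_add_two_pi_mem_D hz)
    rw [hf'per z hz, Sh.sb_f_per z hz, h1] at h2
    exact (mul_right_cancel₀ hfz h2).symm
  have hc1 : ContinuousAt (fun z => Sh.q (z + 2 * π) - Sh.q z) s := by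
    have h1 : ContinuousAt Sh.q (s + 2 * π) := (Sh.sb_q_at (Sh.sb_add_two_pi_mem_D hs)).continuousAt
    have h2 : ContinuousAt (fun z : ℂ => z + 2 * π) s := by fun_prop
    exact (ContinuousAt.comp (f := fun z : ℂ => z + 2 * π) (g := Sh.q) h1 h2).sub
      (Sh.sb_q_at hs).continuousAt
  have hev : ∀ᶠ z in 𝓝[≠] s, Sh.q (z + 2 * π) - Sh.q z = 0 := by
    filter_upwards [Sh.sb_f_frequently_ne hs, nhdsWithin_le_nhds (Sh.sb_D_mem_nhds hs)] with z hz hzD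
    rw [hoff z hzD hz, sub_self]
  have hlim : Tendsto (fun z => Sh.q (z + 2 * π) - Sh.q z) (𝓝[≠] s) (𝓝 0) :=
    (tendsto_congr' hev).2 tendsto_const_nhds
  have := tendsto_nhds_unique (hc1.tendsto.mono_left nhdsWithin_le_nhds) hlim
  exact sub_eq_zero.1 this

/-! ### periodicity of the curve -/

theorem sb_Gs_pos : 0 < Sh.G.s := Sh.G.r₁_pos.trans Sh.G.r₁_lt

theorem sb_hstrip_isOpen (c : ℝ) : IsOpen (hstrip c) := ca_strip_isOpen c

theorem sb_hc_deriv_per {z : ℂ} (hz : z ∈ hstrip Sh.G.σ) :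
    deriv Sh.G.hc (z + 2 * π) = deriv Sh.G.hc z := by
  have h1 : (fun w => Sh.G.hc (w + 2 * π)) =ᶠ[𝓝 z] Sh.G.hc := by
    filter_upwards [(sb_hstrip_isOpen Sh.G.σ).mem_nhds hz] with w hw using Sh.G.hc_per w hw
  have h2 := h1.deriv_eq
  rwa [deriv_comp_add_const] at h2

theorem sb_Γ0_per {y : ℂ} (hy : y ∈ hstrip (Sh.G.s / 2)) : Sh.G.Γ0 (y + 2 * π) = Sh.G.Γ0 y := by
  have hs := Sh.sb_Gs_pos
  have hy2 : y ∈ hstrip (2 * Sh.G.s) := by
    have : |y.im| < Sh.G.s / 2 := hy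
    show |y.im| < 2 * Sh.G.s
    linarith
  have h0 : (0 : ℂ) ∈ Metric.ball (0 : ℂ) Sh.G.r₁ := Metric.mem_ball_self Sh.G.r₁_pos
  have hΘ := Sh.G.Θ_per y hy2 0 h0
  have hmem := Sh.G.Θ_mem y hy2 0 h0
  simp only [Glance.Γ0, Glance.X0, zero_div, sub_zero, add_zero]
  rw [hΘ]
  have e1 : (Sh.G.Θ y 0 + 2 * π + (Sh.G.Θ y 0 + 2 * π)) / 2 = Sh.G.Θ y 0 + 2 * π := by ring
  have e2 : (Sh.G.Θ y 0 + Sh.G.Θ y 0) / 2 = Sh.G.Θ y 0 := by ring
  rw [e1, e2]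
  simp only [suppPt]
  rw [Sh.G.hc_per _ hmem, Sh.sb_hc_deriv_per hmem, Complex.cos_add_two_pi, Complex.sin_add_two_pi]

theorem sb_Γ_at {s : ℂ} (hs : s ∈ Sh.D) (hf : Sh.f s ≠ 0) : ContinuousAt Sh.Γ s :=
  (Sh.Γ_deriv s hs hf).continuousAt

/-- identity principle for a meromorphic function on the strip that is periodic near `0`. -/
theorem sb_mero_per {g : ℂ → ℂ} (hg : MeromorphicOn g Sh.D)
    (h0 : ∀ᶠ y in 𝓝 (0 : ℂ), g (y + 2 * π) = g y) {s : ℂ} (hs : s ∈ Sh.D)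
    (hc : ContinuousAt g s) (hc' : ContinuousAt g (s + 2 * π)) : g (s + 2 * π) = g s := by
  set Δ : ℂ → ℂ := fun z => g (z + 2 * π) - g z with hΔ
  have hΔm : MeromorphicOn Δ Sh.D := by
    intro z hz
    have h1 : MeromorphicAt (g ∘ (· + (2 * π : ℂ))) z :=
      meromorphicAt_comp_add_const_iff_meromorphicAt.2 (hg _ (Sh.sb_add_two_pi_mem_D hz))
    exact h1.sub (hg z hz)
  have htop0 : meromorphicOrderAt Δ 0 = ⊤ := by
    rw [meromorphicOrderAt_eq_top_iff]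
    filter_upwards [nhdsWithin_le_nhds h0] with y hy
    simp only [hΔ, hy, sub_self]
  have htop : meromorphicOrderAt Δ s = ⊤ := by
    by_contra hne
    exact hΔm.meromorphicOrderAt_ne_top_of_isPreconnected Sh.sb_isPreconnected_D hs
      Sh.sb_zero_mem_D hne htop0
  rw [meromorphicOrderAt_eq_top_iff] at htop
  have hcΔ : ContinuousAt Δ s := by
    have h2 : ContinuousAt (fun z : ℂ => z + 2 * π) s := by fun_prop
    exact (ContinuousAt.comp (f := fun z : ℂ => z + 2 * π) (g := g) hc' h2).sub hc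
  have hlim : Tendsto Δ (𝓝[≠] s) (𝓝 0) := (tendsto_congr' htop).2 tendsto_const_nhds
  have := tendsto_nhds_unique (hcΔ.tendsto.mono_left nhdsWithin_le_nhds) hlim
  exact sub_eq_zero.1 this

theorem sb_Γ_per {s : ℂ} (hs : s ∈ Sh.D) (hf : Sh.f s ≠ 0) : Sh.Γ (s + 2 * π) = Sh.Γ s := by
  have hs' := Sh.sb_add_two_pi_mem_D hs
  have hf' : Sh.f (s + 2 * π) ≠ 0 := by rwa [Sh.sb_f_per s hs]
  have h0 : ∀ᶠ y in 𝓝 (0 : ℂ), Sh.Γ (y + 2 * π) = Sh.Γ y := by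
    have hmem : (0 : ℂ) ∈ hstrip (Sh.G.s / 2) := by
      show |(0 : ℂ).im| < Sh.G.s / 2
      simpa using Sh.sb_Gs_pos
    filter_upwards [(sb_hstrip_isOpen (Sh.G.s / 2)).mem_nhds hmem] with y hy
    have hy' : y + 2 * π ∈ hstrip (Sh.G.s / 2) := by
      have : |y.im| < Sh.G.s / 2 := hy
      show |(y + 2 * π).im| < Sh.G.s / 2
      simpa using this
    rw [Sh.Γ_base y hy, Sh.Γ_base _ hy', Sh.sb_Γ0_per hy]
  apply Prod.ext
  · exact Sh.sb_mero_per Sh.Γ_mero.1 (h0.mono fun y hy => by rw [hy]) hs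
      (continuous_fst.continuousAt.comp (Sh.sb_Γ_at hs hf))
      (continuous_fst.continuousAt.comp (Sh.sb_Γ_at hs' hf'))
  · exact Sh.sb_mero_per Sh.Γ_mero.2 (h0.mono fun y hy => by rw [hy]) hs
      (continuous_snd.continuousAt.comp (Sh.sb_Γ_at hs hf))
      (continuous_snd.continuousAt.comp (Sh.sb_Γ_at hs' hf'))

/-! ### bounds on closed substrips (finite `H`) -/

theorem sb_bdd_p (hH : Sh.H ≠ ⊤) {c : ℝ} (hc : c < Sh.Hr) :
    ∃ M : ℝ, ∀ z : ℂ, |z.im| ≤ c → ‖Sh.φ z - z‖ ≤ M := by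
  refine ca_strip_bdd (g := fun z => Sh.φ z - z) (H := Sh.Hr) ?_ ?_ hc
  · rw [← Sh.sb_D_eq hH]
    exact Sh.φ_diff.continuousOn.sub continuousOn_id
  · intro z hz
    rw [Sh.φ_per z ((Sh.sb_mem_D_iff hH z).2 hz)]
    ring

theorem sb_bdd_f (hH : Sh.H ≠ ⊤) {c : ℝ} (hc : c < Sh.Hr) :
    ∃ M : ℝ, ∀ z : ℂ, |z.im| ≤ c → ‖Sh.f z‖ ≤ M := by
  refine ca_strip_bdd (g := Sh.f) (H := Sh.Hr) ?_ ?_ hc
  · rw [← Sh.sb_D_eq hH]
    exact Sh.sb_f_diff.continuousOn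
  · intro z hz
    exact Sh.sb_f_per z ((Sh.sb_mem_D_iff hH z).2 hz)

theorem sb_bdd_q (hH : Sh.H ≠ ⊤) {c : ℝ} (hc : c < Sh.Hr) :
    ∃ M : ℝ, ∀ z : ℂ, |z.im| ≤ c → ‖Sh.q z‖ ≤ M := by
  refine ca_strip_bdd (g := Sh.q) (H := Sh.Hr) ?_ ?_ hc
  · rw [← Sh.sb_D_eq hH]
    exact Sh.q_diff.continuousOn
  · intro z hz
    exact Sh.sb_q_per z ((Sh.sb_mem_D_iff hH z).2 hz)

theorem sb_bddAbove_M (hH : Sh.H ≠ ⊤) {h : ℝ} (hh : |h| < Sh.Hr) :
    BddAbove (Set.range fun x : ℝ => Sh.M (⟨x, h⟩ : ℂ)) := by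
  obtain ⟨Mf, hMf⟩ := Sh.sb_bdd_f hH hh
  obtain ⟨Mq, hMq⟩ := Sh.sb_bdd_q hH hh
  refine ⟨max Mf (Real.sqrt Mq), ?_⟩
  rintro _ ⟨x, rfl⟩
  exact max_le_max (hMf _ le_rfl) (Real.sqrt_le_sqrt (hMq _ le_rfl))

theorem sb_M_le_rowMax (hH : Sh.H ≠ ⊤) {z : ℂ} (hz : z ∈ Sh.D) : Sh.M z ≤ Sh.rowMax z.im :=
  le_ciSup (Sh.sb_bddAbove_M hH ((Sh.sb_mem_D_iff hH z).1 hz)) z.re

theorem sb_norm_f_le_M (z : ℂ) : ‖Sh.f z‖ ≤ Sh.M z := le_max_left _ _

theorem sb_norm_f_conj {s : ℂ} (hs : s ∈ Sh.D) : ‖Sh.f (conj s)‖ = ‖Sh.f s‖ := by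
  rw [Sh.sb_f_conj s hs, Complex.norm_conj]

/-- the curve is bounded on closed substrips where `f` is not small. -/
theorem sb_bdd_Γ (hH : Sh.H ≠ ⊤) {c : ℝ} (hc : c < Sh.Hr) {ε : ℝ} (hε : 0 < ε) :
    ∃ M : ℝ, ∀ z : ℂ, |z.im| ≤ c → ε ≤ ‖Sh.f z‖ → ‖Sh.Γ z‖ ≤ M := by
  have hR : IsCompact (Icc (0 : ℝ) (2 * π) ×ℂ Icc (-c) c) := isCompact_Icc.reProdIm isCompact_Icc
  have hRD : (Icc (0 : ℝ) (2 * π) ×ℂ Icc (-c) c) ⊆ Sh.D := by
    intro z hz
    rw [mem_reProdIm] at hz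
    exact (Sh.sb_mem_D_iff hH z).2 ((abs_le.2 hz.2).trans_lt hc)
  have hK : IsCompact ((Icc (0 : ℝ) (2 * π) ×ℂ Icc (-c) c) ∩ (fun z => ‖Sh.f z‖) ⁻¹' Ici ε) := by
    refine hR.of_isClosed_subset ?_ inter_subset_left
    exact (Sh.sb_f_diff.continuousOn.mono hRD).norm.preimage_isClosed_of_isClosed hR.isClosed
      isClosed_Ici
  have hne : ∀ z : ℂ, ε ≤ ‖Sh.f z‖ → Sh.f z ≠ 0 := by
    intro z hz h0
    rw [h0, norm_zero] at hz
    linarith
  obtain ⟨M, hM⟩ := hK.exists_bound_of_continuousOn (f := Sh.Γ) (by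
    intro z hz
    exact (Sh.sb_Γ_at (hRD hz.1) (hne z hz.2)).continuousWithinAt)
  refine ⟨M, fun z hz hfz => ?_⟩
  -- reduce the real part to one period
  set w : ℂ := (z.im : ℂ) * I with hw
  have hwD : ∀ x : ℝ, (x : ℂ) + w ∈ Sh.D := fun x =>
    (Sh.sb_mem_D_iff hH _).2 (by simpa [hw] using hz.trans_lt hc)
  have hper : Function.Periodic
      (fun x : ℝ => if Sh.f ((x : ℂ) + w) = 0 then ((0 : ℂ × ℂ), (0 : ℂ))
        else (Sh.Γ ((x : ℂ) + w), Sh.f ((x : ℂ) + w))) (2 * π) := by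
    intro x
    have e : (((x + 2 * π : ℝ) : ℂ) + w) = ((x : ℂ) + w) + 2 * π := by push_cast; ring
    simp only [e, Sh.sb_f_per _ (hwD x)]
    by_cases h0 : Sh.f ((x : ℂ) + w) = 0
    · simp [h0]
    · simp only [h0, if_false]
      rw [Sh.sb_Γ_per (hwD x) h0]
  obtain ⟨y, hy, hy'⟩ := hper.exists_mem_Ico₀ Real.two_pi_pos z.re
  have ez : (z.re : ℂ) + w = z := by rw [hw]; exact re_add_im z
  simp only [ez, hne z hfz, if_false] at hy'
  by_cases h0 : Sh.f ((y : ℂ) + w) = 0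
  · simp only [h0, if_true] at hy'
    exact absurd (congrArg Prod.snd hy') (hne z hfz)
  · simp only [h0, if_false] at hy'
    have h1 : Sh.Γ z = Sh.Γ ((y : ℂ) + w) := congrArg Prod.fst hy'
    have h2 : Sh.f z = Sh.f ((y : ℂ) + w) := congrArg Prod.snd hy'
    rw [h1]
    refine hM _ ⟨?_, ?_⟩
    · rw [mem_reProdIm]
      refine ⟨by simpa [hw] using ⟨hy.1, hy.2.le⟩, by simpa [hw] using abs_le.1 hz⟩
    · show ε ≤ ‖Sh.f ((y : ℂ) + w)‖
      rw [← h2]; exact hfz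

/-! ### zeros of `f` -/

/-- `f` and `f'` have no common zero. -/
theorem sb_f_f'_ne {s : ℂ} (hs : s ∈ Sh.D) : Sh.f s ≠ 0 ∨ deriv Sh.f s ≠ 0 := by
  by_contra hcon
  push Not at hcon
  obtain ⟨h0, h1⟩ := hcon
  have hfa : AnalyticAt ℂ Sh.f s := Sh.sb_f_analytic s hs
  have hqa : AnalyticAt ℂ Sh.q s := Sh.sb_q_analytic s hs
  have hne : analyticOrderAt Sh.f s ≠ ⊤ := by
    rw [Ne, analyticOrderAt_eq_top]
    exact Sh.sb_f_not_eventually_zero hs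
  have h2 : ((2 : ℕ) : ℕ∞) ≤ analyticOrderAt Sh.f s := by
    rw [natCast_le_analyticOrderAt_iff_iteratedDeriv_eq_zero hfa]
    intro i hi
    interval_cases i
    · simpa using h0
    · simpa using h1
  obtain ⟨n, hn⟩ := ENat.ne_top_iff_exists.1 hne
  rw [← hn] at h2
  have h2' : 2 ≤ n := by exact_mod_cast h2
  obtain ⟨m, rfl⟩ : ∃ m, n = m + 2 := ⟨n - 2, by omega⟩
  have ho1 : analyticOrderAt (deriv Sh.f) s = ((m + 1 : ℕ) : ℕ∞) :=
    analyticOrderAt_deriv_of_pos hfa (n := m + 1) (by rw [← hn]; push_cast; ring)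
  have ho2 : analyticOrderAt (deriv (deriv Sh.f)) s = (m : ℕ∞) :=
    analyticOrderAt_deriv_of_pos hfa.deriv (n := m) (by rw [ho1]; push_cast; ring)
  have hcongr : deriv (deriv Sh.f) =ᶠ[𝓝 s] Sh.q * Sh.f := by
    filter_upwards [Sh.sb_D_mem_nhds hs] with z hz using Sh.sb_f_ode z hz
  rw [analyticOrderAt_congr hcongr, analyticOrderAt_mul hqa hfa, ← hn] at ho2
  have h3 : ((m + 2 : ℕ) : ℕ∞) ≤ (m : ℕ∞) := by
    rw [← ho2]; exact le_add_self
  have h4 : m + 2 ≤ m := by exact_mod_cast h3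
  omega

/-- the zeros of `f` in the strip are countable. -/
theorem sb_countable_zeros : {s | s ∈ Sh.D ∧ Sh.f s = 0}.Countable := by
  have hd : DiscreteTopology ↥{s | s ∈ Sh.D ∧ Sh.f s = 0} := by
    rw [discreteTopology_subtype_iff]
    intro x hx
    rw [Filter.inf_principal_eq_bot]
    filter_upwards [Sh.sb_f_frequently_ne hx.1] with z hz hz'
    exact hz hz'.2
  rw [← Set.countable_coe_iff]
  exact (TopologicalSpace.separableSpace_iff_countable).1 inferInstance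

theorem sb_measurable_f : Measurable Sh.f := measurable_deriv Sh.φ

theorem sb_measurable_f' : Measurable (deriv Sh.f) := measurable_deriv Sh.f

/-! ### conjugation symmetry of `q` -/

theorem sb_deriv_conj {g : ℂ → ℂ} (hg : ∀ z ∈ Sh.D, g (conj z) = conj (g z)) :
    ∀ z ∈ Sh.D, deriv g (conj z) = conj (deriv g z) := by
  intro s hs
  have h1 : (conj ∘ g ∘ conj) =ᶠ[𝓝 s] g := by
    filter_upwards [Sh.sb_D_mem_nhds hs] with z hz
    simp only [Function.comp_apply]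
    rw [hg z hz, Complex.conj_conj]
  have h2 := h1.deriv_eq
  rw [deriv_conj_conj] at h2
  simp only [Function.comp_apply] at h2
  have h3 : conj (conj (deriv g (conj s))) = conj (deriv g s) := by rw [h2]
  rwa [Complex.conj_conj] at h3

theorem sb_q_conj (s : ℂ) (hs : s ∈ Sh.D) : Sh.q (conj s) = conj (Sh.q s) := by
  have hf2 : ∀ z ∈ Sh.D, deriv (deriv Sh.f) (conj z) = conj (deriv (deriv Sh.f) z) :=
    Sh.sb_deriv_conj (Sh.sb_deriv_conj Sh.sb_f_conj)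
  have hoff : ∀ z ∈ Sh.D, Sh.f z ≠ 0 → Sh.q (conj z) = conj (Sh.q z) := by
    intro z hz hfz
    have h1 := Sh.sb_f_ode z hz
    have h2 := Sh.sb_f_ode (conj z) (Sh.sb_conj_mem_D hz)
    rw [hf2 z hz, Sh.sb_f_conj z hz, h1, map_mul] at h2
    have hne : conj (Sh.f z) ≠ 0 := by simpa using hfz
    exact (mul_right_cancel₀ hne h2).symm
  have hc1 : ContinuousAt (fun z => Sh.q (conj z) - conj (Sh.q z)) s := by
    have h1 : ContinuousAt Sh.q (conj s) := (Sh.sb_q_at (Sh.sb_conj_mem_D hs)).continuousAt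
    have h2 : ContinuousAt (fun z : ℂ => conj z) s := Complex.continuous_conj.continuousAt
    exact (ContinuousAt.comp (f := fun z : ℂ => conj z) (g := Sh.q) h1 h2).sub
      (Complex.continuous_conj.continuousAt.comp (Sh.sb_q_at hs).continuousAt)
  have hev : ∀ᶠ z in 𝓝[≠] s, Sh.q (conj z) - conj (Sh.q z) = 0 := by
    filter_upwards [Sh.sb_f_frequently_ne hs, nhdsWithin_le_nhds (Sh.sb_D_mem_nhds hs)] with z hz hzD
    rw [hoff z hzD hz, sub_self]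
  have hlim : Tendsto (fun z => Sh.q (conj z) - conj (Sh.q z)) (𝓝[≠] s) (𝓝 0) :=
    (tendsto_congr' hev).2 tendsto_const_nhds
  have := tendsto_nhds_unique (hc1.tendsto.mono_left nhdsWithin_le_nhds) hlim
  exact sub_eq_zero.1 this

theorem sb_M_conj {s : ℂ} (hs : s ∈ Sh.D) : Sh.M (conj s) = Sh.M s := by
  rw [M, M, Sh.sb_f_conj s hs, Sh.sb_q_conj s hs, Complex.norm_conj, Complex.norm_conj]

/-! ### rows -/

theorem sb_row_mem_D (hH : Sh.H ≠ ⊤) {h : ℝ} (hh : |h| < Sh.Hr) (x : ℝ) : (⟨x, h⟩ : ℂ) ∈ Sh.D :=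
  (Sh.sb_mem_D_iff hH _).2 hh

theorem sb_row_continuous {g : ℂ → ℂ} (hg : ContinuousOn g Sh.D) (hH : Sh.H ≠ ⊤) {h : ℝ}
    (hh : |h| < Sh.Hr) : Continuous fun x : ℝ => g (⟨x, h⟩ : ℂ) := by
  refine hg.comp_continuous ?_ (fun x => Sh.sb_row_mem_D hH hh x)
  have : (fun x : ℝ => (⟨x, h⟩ : ℂ)) = fun x : ℝ => (x : ℂ) + (h : ℂ) * I := by
    funext x; apply Complex.ext <;> simp
  rw [this]
  fun_prop

/-- the pointwise form of the polynomial bound for the row maxima. -/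
theorem sb_M_le (hH : Sh.H ≠ ⊤) {C k₀ : ℝ}
    (hp : ∀ k, k₀ ≤ k → Real.exp (-k) * Sh.rowMax (Sh.Hr - Real.exp (-k)) ≤ C * (1 + k) ^ 2)
    {z : ℂ} (hz : z ∈ Sh.D) (hk : k₀ ≤ -Real.log (Sh.Hr - |z.im|)) :
    (Sh.Hr - |z.im|) * Sh.M z ≤ C * (1 - Real.log (Sh.Hr - |z.im|)) ^ 2 := by
  have hd : 0 < Sh.Hr - |z.im| := by
    have := (Sh.sb_mem_D_iff hH z).1 hz
    linarith
  have h1 := hp _ hk
  rw [neg_neg, Real.exp_log hd, sub_sub_cancel] at h1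
  have h2 : Sh.M z ≤ Sh.rowMax |z.im| := by
    rcases abs_cases z.im with ⟨h, _⟩ | ⟨h, _⟩
    · rw [h]; exact Sh.sb_M_le_rowMax hH hz
    · have h3 := Sh.sb_M_le_rowMax hH (Sh.sb_conj_mem_D hz)
      have h4 : Sh.M (conj z) = Sh.M z := Sh.sb_M_conj hz
      rw [h4] at h3
      rw [h]
      simpa using h3
  calc (Sh.Hr - |z.im|) * Sh.M z ≤ (Sh.Hr - |z.im|) * Sh.rowMax |z.im| := by gcongr
    _ ≤ C * (1 + -Real.log (Sh.Hr - |z.im|)) ^ 2 := h1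
    _ = _ := by ring

end Shape

end Claimed.Agent.R269
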