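/-
Row 269: stage T3 (P1 Sections 4-11) from section-level exports.  Owner of the STATEMENTS: captain
helper264.  Every `sorry` below is the export of one section package; it will be replaced by a call
of that package's main theorem (the packages import `Shape.lean`, never this file).

Final assembly = P1, end of Section 11 ("Completion of the rigidity theorem").
-/
import Claimed.Agent.R269.S5.Main
import Claimed.Agent.R269.S11.Main
import Claimed.Agent.R269.S6.Width
import Claimed.Agent.R269.S6.Sub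
import Claimed.Agent.R269.S6.SuperMain
import Claimed.Agent.R269.S7.Main
import Claimed.Agent.R269.S8.Budget
import Claimed.Agent.R269.S9.Main

set_option autoImplicit false

namespace Claimed.Agent.R269

open Complex Filter Topology MeasureTheory
open scoped ENNReal Real

/-- EXPORT of Sections 4-5 (Thm 4.8, Cor 4.9, Thm 5.3, Thm 5.4, Lemma 5.5, normalisation (5.23), and
"constant `f` gives a circle"): either the table is an ellipse, or there is a `Shape`. -/
theorem sec45_alternative (G : Glance) : IsEllipseSupport G.hR ∨ Nonempty Shape :=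
  sec45_alternative' G

namespace Shape

variable (Sh : Shape)

/-- EXPORT (Section 6.4, first paragraph: "real no-patch transfer").  A passage at a REAL parameter
gives a global lower bound for the width. -/
theorem passage_width {R : Set (ℂ × ℂ)} {S : ℂ × ℂ → ℂ} (hP : Sh.IsPassage R S) (t₀ : ℝ) (y : ℂ)
    (hy : (y, (t₀ : ℂ)) ∈ R) : ENNReal.ofReal y.im < Sh.G.hX t₀ :=
  Sh.s6_passage_width hP t₀ y hy

/-- EXPORT of Section 7 (Thm 7.7, first half): `H = ∞` is impossible for a noncircular table. -/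
theorem H_ne_top : Sh.H ≠ ⊤ :=
  Sh.s7_H_ne_top

/-- EXPORT of Section 7 (Thm 7.7, second half): finite upper growth order. -/
theorem order_lt_top (hH : Sh.H ≠ ⊤) : Sh.order < ⊤ :=
  Sh.s7_order_lt_top hH

/-- EXPORT of Section 6 (Prop 6.5): subcritical growth is impossible. -/
theorem one_le_order (hH : Sh.H ≠ ⊤) : 1 ≤ Sh.order :=
  Sh.s6_one_le_order hH

/-- EXPORT of Section 6 (Thm 6.7): finite superlinear growth is impossible. -/
theorem not_superlinear (hH : Sh.H ≠ ⊤) (h1 : 1 < Sh.order) (h2 : Sh.order < ⊤) : False :=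
  Sh.s6u_not_superlinear hH h1 h2

/-- the finite critical wall. -/
def Critical : Prop := Sh.H ≠ ⊤ ∧ Sh.order = 1

/-- EXPORT of Sections 8-9 (Cor 9.14 = Thm 8.12 + Thm 9.1): the angle budget. -/
theorem critical_budget (hc : Sh.Critical) :
    ∃ (ε C k₀ : ℝ), 0 < ε ∧ 1 ≤ k₀ ∧ Real.exp (-k₀) < Sh.Hr ∧ ∀ K, k₀ ≤ K →
      ∫ k in k₀..K, Sh.μf k ^ 2 ≤ C * K ^ (2 - ε) :=
  Sh.s8_critical_budget hc.1 hc.2 (s9_no_prohibited Sh hc.1 hc.2)

/-- EXPORT of Sections 8-9 (Cor 8.10 + Thm 9.1): polynomial bounds. -/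
theorem critical_poly (hc : Sh.Critical) :
    ∃ (C k₀ : ℝ), 1 ≤ k₀ ∧ ∀ k, k₀ ≤ k →
      Sh.μ k ≤ C * (1 + k) ∧ Real.exp (-k) * Sh.rowMax (Sh.Hr - Real.exp (-k)) ≤ C * (1 + k) ^ 2 :=
  Sh.s8_critical_poly hc.1 hc.2 (s9_no_prohibited Sh hc.1 hc.2)

/-- EXPORT of Sections 10-11 (Thm 11.10, the last-site contradiction). -/
theorem last_site (hc : Sh.Critical)
    (hb : ∃ (ε C k₀ : ℝ), 0 < ε ∧ 1 ≤ k₀ ∧ Real.exp (-k₀) < Sh.Hr ∧ ∀ K, k₀ ≤ K →
      ∫ k in k₀..K, Sh.μf k ^ 2 ≤ C * K ^ (2 - ε))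
    (hp : ∃ (C k₀ : ℝ), 1 ≤ k₀ ∧ ∀ k, k₀ ≤ k →
      Sh.μ k ≤ C * (1 + k) ∧
        Real.exp (-k) * Sh.rowMax (Sh.Hr - Real.exp (-k)) ≤ C * (1 + k) ^ 2) : False :=
  Sh.last_site_main hc hb hp

/-- Sections 6-11: there is no `Shape`. -/
theorem contradiction (Sh : Shape) : False := by
  have hH := Sh.H_ne_top
  have h1 := Sh.one_le_order hH
  have h2 := Sh.order_lt_top hH
  rcases h1.lt_or_eq with h | h
  · exact Sh.not_superlinear hH h h2
  · have hc : Sh.Critical := ⟨hH, h.symm⟩
    exact Sh.last_site hc (Sh.critical_budget hc) (Sh.critical_poly hc)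

end Shape

/-- T3 = P1 Sections 4-11. -/
theorem stage_T3 (G : Glance) : IsEllipseSupport G.hR := by
  rcases sec45_alternative G with h | h
  · exact h
  · obtain ⟨Sh⟩ := h
    exact Sh.contradiction.elim

end Claimed.Agent.R269
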