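/-
Row 269: the six top-level stages (statements).  Owner of the STATEMENTS: helper264 (captain).
Each stage is proved in its own package; this file will then import those packages.

  T0  (P1 Sec 2.1, first half of Lemma 2.2)   physical caustic collar  ⇒ support function + GlancingRigid
  T0' (P2 Sec "geometry")                      phase foliation          ⇒ support function + GlancingRigid
  T1  (P1 Sec 2)                               GlancingRigid            ⇒ h real analytic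
  T2  (P1 Sec 3)                               analytic + GlancingRigid ⇒ Glance context
  T3  (P1 Secs 4-11)                           Glance context           ⇒ ellipse support function
  T4  (elementary)                             ellipse support function ⇒ the frozen conclusion
-/
import Claimed.Agent.R269.Stage3
import Claimed.Agent.R269.S2.Main
import Claimed.Agent.R269.S3.Main
import Claimed.Agent.R269.T0.Main
import Claimed.Agent.R269.T0p.Main
import Claimed.Agent.R269.T4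
import Claimed.Prelude.Def_0438
import Claimed.Prelude.Def_0439

set_option autoImplicit false

namespace Claimed.Agent.R269

open Real

/-- T0. -/
theorem stage_T0 (Ω : Set (ℝ × ℝ)) (γ : ℝ → ℝ × ℝ) (L : ℝ)
    (hΩo : IsOpen Ω) (hΩb : Bornology.IsBounded Ω) (hΩc : StrictConvex ℝ (closure Ω))
    (hγ : Claims.C0438.IsSmoothSimpleClosedRegular γ L) (hbd : frontier Ω = Set.range γ)
    (hcurv : ∀ t, Claims.C0438.det2 (deriv γ t) (deriv (deriv γ) t) ≠ 0)
    (hcollar : Claims.C0438.HasCausticCollar Ω γ) :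
    ∃ (c₀ : ℝ × ℝ) (h : ℝ → ℝ), IsSupport h ∧ Ω = tableOf c₀ h ∧ GlancingRigid h :=
  t0_stage Ω γ L hΩo hΩb hΩc hγ hbd hcurv hcollar

/-- T0'. -/
theorem stage_T0' (Ω : Set (ℝ × ℝ)) (γ : ℝ → ℝ × ℝ) (L : ℝ)
    (hΩo : IsOpen Ω) (hΩb : Bornology.IsBounded Ω) (hΩc : StrictConvex ℝ (closure Ω))
    (hL : 0 < L) (hsmooth : ContDiff ℝ ((⊤ : ℕ∞) : WithTop ℕ∞) γ) (hper : Function.Periodic γ L)
    (hinj : Set.InjOn γ (Set.Ico 0 L))
    (hunit : ∀ s, Claims.C0439.dot2 (deriv γ s) (deriv γ s) = 1)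
    (hbd : frontier Ω = Set.range γ)
    (hcurv : ∀ s, 0 < Claims.C0439.det2 (deriv γ s) (deriv (deriv γ) s))
    (U : Set (AddCircle L × Set.Ioo (0 : ℝ) Real.pi)) (hUo : IsOpen U)
    (hUinv : Claims.C0439.IsBilliardInvariant γ L U)
    (η : ℝ) (hη : 0 < η)
    (hstrip : ∀ p : AddCircle L × Set.Ioo (0 : ℝ) Real.pi, (p.2 : ℝ) < η → p ∈ U)
    (H : Circle × Set.Ioo (0 : ℝ) 1 ≃ₜ U)
    (hleaf_inv : ∀ b : Set.Ioo (0 : ℝ) 1,
      Claims.C0439.IsBilliardInvariant γ L (Subtype.val '' (H '' {x | x.2 = b})))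
    (hleaf_ess : ∀ b : Set.Ioo (0 : ℝ) 1,
      ∀ f : C(Circle, AddCircle L × Set.Ioo (0 : ℝ) Real.pi),
      (∀ z, f z = (H (z, b) : AddCircle L × Set.Ioo (0 : ℝ) Real.pi)) →
      ∀ m, ¬ f.Homotopic (ContinuousMap.const Circle m)) :
    ∃ (c₀ : ℝ × ℝ) (h : ℝ → ℝ), IsSupport h ∧ Ω = tableOf c₀ h ∧ GlancingRigid h :=
  t0p_stage Ω γ L hΩo hΩb hΩc hL hsmooth hper hinj hunit hbd hcurv U hUo hUinv η hη hstrip H
    hleaf_inv hleaf_ess

/-- T1 = P1 Theorem 2.1 (analytic regularity). -/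
theorem stage_T1 (h : ℝ → ℝ) (hs : IsSupport h) (hg : GlancingRigid h) :
    AnalyticOnNhd ℝ h Set.univ :=
  s2_stage_T1 h hs hg

/-- T2 = P1 Theorem 3.1 (joint glancing parametrization). -/
theorem stage_T2 (h : ℝ → ℝ) (hs : IsSupport h) (hg : GlancingRigid h)
    (ha : AnalyticOnNhd ℝ h Set.univ) :
    ∃ G : Glance, ∀ θ : ℝ, G.hc θ = h θ :=
  S3.s3_stage_T2 h hs hg ha

/-- T4. -/
theorem stage_T4 (c₀ : ℝ × ℝ) (h : ℝ → ℝ) (he : IsEllipseSupport h) :
    ∃ (c : ℝ × ℝ) (a b d : ℝ), 0 < a ∧ 0 < a * d - b ^ 2 ∧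
      tableOf c₀ h =
        {x | a * (x.1 - c.1) ^ 2 + 2 * b * (x.1 - c.1) * (x.2 - c.2) + d * (x.2 - c.2) ^ 2 < 1} :=
  t4_main c₀ h he

/-- The common core: T1-T4. -/
theorem core (c₀ : ℝ × ℝ) (h : ℝ → ℝ) (hs : IsSupport h) (hg : GlancingRigid h) :
    ∃ (c : ℝ × ℝ) (a b d : ℝ), 0 < a ∧ 0 < a * d - b ^ 2 ∧
      tableOf c₀ h =
        {x | a * (x.1 - c.1) ^ 2 + 2 * b * (x.1 - c.1) * (x.2 - c.2) + d * (x.2 - c.2) ^ 2 < 1} := by
  obtain ⟨G, hG⟩ := stage_T2 h hs hg (stage_T1 h hs hg)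
  have hh : G.hR = h := by
    funext θ
    simp [Glance.hR, hG θ]
  exact stage_T4 c₀ h (hh ▸ stage_T3 G)

end Claimed.Agent.R269
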