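/-
Row 269, stage T4 (elementary):  ellipse support function  ⟹  the frozen conclusion.        helper113.
`t4_main` = `stage_T4` of Stages.lean verbatim.

With `N = [[n₁, n₂], [n₂, n₃]]`, `Δ = det N`, `y = x - c₀ - v`, `P = yᵀ adj(N) y`:   `(∀ θ, y · n_θ < √(n_θᵀ N n_θ)) ↔ P < Δ`.
`⇐`: Lagrange identity `P (uᵀ N u) - Δ (y · u)² = (zᵀ N u)²`, `z = (-y₂, y₁)`.      `⇒`: test with `n_θ ∥ adj(N) y`.
-/
import Claimed.Agent.R269.T0.Conv

set_option autoImplicit false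

namespace Claimed.Agent.R269

open Real

theorem t4_main (c₀ : ℝ × ℝ) (h : ℝ → ℝ) (he : IsEllipseSupport h) :
    ∃ (c : ℝ × ℝ) (a b d : ℝ), 0 < a ∧ 0 < a * d - b ^ 2 ∧
      tableOf c₀ h =
        {x | a * (x.1 - c.1) ^ 2 + 2 * b * (x.1 - c.1) * (x.2 - c.2) + d * (x.2 - c.2) ^ 2 < 1} := by
  obtain ⟨n₁, n₂, n₃, v₁, v₂, hn₁, hΔ, hh⟩ := he
  set Δ := n₁ * n₃ - n₂ ^ 2 with hΔdef
  have hn₃ : 0 < n₃ := by
    by_contra hc
    push Not at hc
    nlinarith [sq_nonneg n₂]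
  refine ⟨(c₀.1 + v₁, c₀.2 + v₂), n₃ / Δ, -n₂ / Δ, n₁ / Δ, div_pos hn₃ hΔ, ?_, ?_⟩
  · have : n₃ / Δ * (n₁ / Δ) - (-n₂ / Δ) ^ 2 = 1 / Δ := by
      field_simp
      rw [hΔdef]
      ring
    rw [this]
    positivity
  ext x
  simp only [tableOf, Set.mem_ofPred_eq]
  set y₁ := x.1 - (c₀.1 + v₁) with hy₁
  set y₂ := x.2 - (c₀.2 + v₂) with hy₂
  set P := n₃ * y₁ ^ 2 - 2 * n₂ * y₁ * y₂ + n₁ * y₂ ^ 2 with hP
  have hQ : n₃ / Δ * y₁ ^ 2 + 2 * (-n₂ / Δ) * y₁ * y₂ + n₁ / Δ * y₂ ^ 2 = P / Δ := by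
    rw [hP]
    field_simp
    ring
  rw [hQ, div_lt_one hΔ]
  have hdot : ∀ θ, dotR (x - c₀) (nvec θ) < h θ ↔
      y₁ * cos θ + y₂ * sin θ < sqrt (n₁ * cos θ ^ 2 + 2 * n₂ * cos θ * sin θ + n₃ * sin θ ^ 2) := by
    intro θ
    rw [hh θ]
    simp only [dotR, nvec, Prod.fst_sub, Prod.snd_sub, hy₁, hy₂]
    constructor <;> intro H <;> linarith
  have hP0 : 0 ≤ P := by
    have : n₁ * P = (n₁ * y₂ - n₂ * y₁) ^ 2 + Δ * y₁ ^ 2 := by
      rw [hP, hΔdef]
      ring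
    have h2 : 0 ≤ n₁ * P := by
      rw [this]
      positivity
    exact nonneg_of_mul_nonneg_right h2 hn₁
  constructor
  · intro H
    set m : ℝ × ℝ := (n₃ * y₁ - n₂ * y₂, -n₂ * y₁ + n₁ * y₂) with hm
    by_cases hm0 : m = 0
    · have e1 : n₃ * y₁ - n₂ * y₂ = 0 := congrArg Prod.fst hm0
      have e2 : -n₂ * y₁ + n₁ * y₂ = 0 := congrArg Prod.snd hm0
      have : P = 0 := by
        rw [hP]
        linear_combination y₁ * e1 + y₂ * e2
      rw [this]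
      exact hΔ
    · obtain ⟨r, θ, hr, e⟩ := t0_polar m hm0
      have e1 : n₃ * y₁ - n₂ * y₂ = r * cos θ := by
        have := congrArg Prod.fst e
        simp only [nvec, Prod.smul_fst, smul_eq_mul] at this
        exact this
      have e2 : -n₂ * y₁ + n₁ * y₂ = r * sin θ := by
        have := congrArg Prod.snd e
        simp only [nvec, Prod.smul_snd, smul_eq_mul] at this
        exact this
      have H1 := (hdot θ).1 (H θ)
      set A := n₁ * cos θ ^ 2 + 2 * n₂ * cos θ * sin θ + n₃ * sin θ ^ 2 with hA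
      have h1 : r * (y₁ * cos θ + y₂ * sin θ) = P := by
        rw [hP]
        linear_combination (-y₁) * e1 + (-y₂) * e2
      have h2 : r ^ 2 * A = Δ * P := by
        have : r ^ 2 * A = n₁ * (r * cos θ) ^ 2 + 2 * n₂ * (r * cos θ) * (r * sin θ) + n₃ * (r * sin θ) ^ 2 := by
          rw [hA]
          ring
        rw [this, ← e1, ← e2, hP, hΔdef]
        ring
      have h3 : P < sqrt (Δ * P) := by
        rw [← h2, sqrt_mul (by positivity), sqrt_sq hr.le, ← h1]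
        exact mul_lt_mul_of_pos_left H1 hr
      rw [Real.lt_sqrt hP0] at h3
      by_contra hc
      push Not at hc
      have h4 : Δ * P ≤ P * P := mul_le_mul_of_nonneg_right hc hP0
      rw [sq] at h3
      linarith
  · intro H θ
    rw [hdot θ]
    set cθ := cos θ with hc
    set sθ := sin θ with hs
    set A := n₁ * cθ ^ 2 + 2 * n₂ * cθ * sθ + n₃ * sθ ^ 2 with hA
    have hcs : sθ ^ 2 + cθ ^ 2 = 1 := sin_sq_add_cos_sq θ
    have hApos : 0 < A := by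
      have e : n₁ * A = (n₁ * cθ + n₂ * sθ) ^ 2 + Δ * sθ ^ 2 := by
        rw [hA, hΔdef]
        ring
      have h2 : 0 < n₁ * A := by
        rw [e]
        by_cases hs0 : sθ = 0
        · have hc1 : cθ ^ 2 = 1 := by rw [hs0] at hcs; linarith
          rw [hs0]
          have : (n₁ * cθ + n₂ * 0) ^ 2 = n₁ ^ 2 * cθ ^ 2 := by ring
          rw [this, hc1]
          positivity
        · have : 0 < sθ ^ 2 := by positivity
          have := mul_pos hΔ this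
          nlinarith [sq_nonneg (n₁ * cθ + n₂ * sθ)]
      exact (mul_pos_iff_of_pos_left hn₁).1 h2
    apply Real.lt_sqrt_of_sq_lt
    have hid : P * A - Δ * (y₁ * cθ + y₂ * sθ) ^ 2 = (-y₂ * (n₁ * cθ + n₂ * sθ) + y₁ * (n₂ * cθ + n₃ * sθ)) ^ 2 := by
      rw [hP, hA, hΔdef]
      ring
    have h1 : Δ * (y₁ * cθ + y₂ * sθ) ^ 2 ≤ P * A := by
      have h0 := sq_nonneg (-y₂ * (n₁ * cθ + n₂ * sθ) + y₁ * (n₂ * cθ + n₃ * sθ))
      rw [← hid] at h0
      linarith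
    have h2 : P * A < Δ * A := mul_lt_mul_of_pos_right H hApos
    exact lt_of_mul_lt_mul_left (h1.trans_lt h2) hΔ.le

end Claimed.Agent.R269
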